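import Vale.Agent.P101.H413.Tensor

/-! Asymptotically central commutator sums give `𝒵`-stability; infinite tensor products. -/

open Filter Topology TopologicalSpace

namespace Vale.Agent.P101.H413

universe u v w

section CommAlg

variable {A : Type u} [CStarAlgebra A] {ι : Type w} (μ : Filter ι) (x : ι → A)

theorem comm_mul {c d : A} (hc : Tendsto (fun i => ‖x i * c - c * x i‖) μ (𝓝 0))
    (hd : Tendsto (fun i => ‖x i * d - d * x i‖) μ (𝓝 0)) :
    Tendsto (fun i => ‖x i * (c * d) - c * d * x i‖) μ (𝓝 0) := by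
  have h : Tendsto (fun i => ‖x i * c - c * x i‖ * ‖d‖ + ‖c‖ * ‖x i * d - d * x i‖) μ (𝓝 0) := by
    simpa using (hc.mul_const ‖d‖).add (hd.const_mul ‖c‖)
  refine squeeze_zero (fun i => norm_nonneg _) (fun i => ?_) h
  have e : x i * (c * d) - c * d * x i = (x i * c - c * x i) * d + c * (x i * d - d * x i) := by
    noncomm_ring
  rw [e]
  exact (norm_add_le _ _).trans (add_le_add (norm_mul_le _ _) (norm_mul_le _ _))

theorem comm_add {c d : A} (hc : Tendsto (fun i => ‖x i * c - c * x i‖) μ (𝓝 0))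
    (hd : Tendsto (fun i => ‖x i * d - d * x i‖) μ (𝓝 0)) :
    Tendsto (fun i => ‖x i * (c + d) - (c + d) * x i‖) μ (𝓝 0) := by
  have h : Tendsto (fun i => ‖x i * c - c * x i‖ + ‖x i * d - d * x i‖) μ (𝓝 0) := by
    simpa using hc.add hd
  refine squeeze_zero (fun i => norm_nonneg _) (fun i => ?_) h
  have e : x i * (c + d) - (c + d) * x i = (x i * c - c * x i) + (x i * d - d * x i) := by
    noncomm_ring
  rw [e]
  exact norm_add_le _ _

theorem comm_alg (r : ℂ) :
    Tendsto (fun i => ‖x i * algebraMap ℂ A r - algebraMap ℂ A r * x i‖) μ (𝓝 0) := by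
  have : (fun i => ‖x i * algebraMap ℂ A r - algebraMap ℂ A r * x i‖) = fun _ => (0 : ℝ) := by
    funext i
    rw [Algebra.commutes r (x i), sub_self, norm_zero]
  rw [this]
  exact tendsto_const_nhds

/-- The elements with which a family commutes asymptotically. -/
def commAlg : StarSubalgebra ℂ A where
  carrier := {c | Tendsto (fun i => ‖x i * c - c * x i‖) μ (𝓝 0) ∧
    Tendsto (fun i => ‖x i * star c - star c * x i‖) μ (𝓝 0)}
  mul_mem' := fun {c d} hc hd => ⟨comm_mul μ x hc.1 hd.1, by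
    rw [star_mul]; exact comm_mul μ x hd.2 hc.2⟩
  add_mem' := fun {c d} hc hd => ⟨comm_add μ x hc.1 hd.1, by
    rw [star_add]; exact comm_add μ x hc.2 hd.2⟩
  algebraMap_mem' := fun r => ⟨comm_alg μ x r, by
    rw [← algebraMap_star_comm]; exact comm_alg μ x _⟩
  star_mem' := fun {c} hc => ⟨hc.2, by rw [star_star]; exact hc.1⟩

/-- A bounded family commutes asymptotically with a closed set of elements. -/
theorem comm_closure {K : ℝ} (hx : ∀ i, ‖x i‖ ≤ K) {S : Set A}
    (hS : ∀ c ∈ S, Tendsto (fun i => ‖x i * c - c * x i‖) μ (𝓝 0)) {c : A} (hc : c ∈ closure S) :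
    Tendsto (fun i => ‖x i * c - c * x i‖) μ (𝓝 0) := by
  rcases isEmpty_or_nonempty ι with hι | ⟨⟨i₀⟩⟩
  · exact Metric.tendsto_nhds.2 fun ε _ => Eventually.of_forall fun i => hι.elim i
  have hK : 0 ≤ K := (norm_nonneg _).trans (hx i₀)
  rw [Metric.tendsto_nhds]
  intro ε hε
  obtain ⟨d, hd, hcd⟩ := Metric.mem_closure_iff.1 hc (ε / (2 * (2 * K + 1))) (by positivity)
  rw [dist_eq_norm] at hcd
  have h1 := (Metric.tendsto_nhds.mp (hS d hd)) (ε / 2) (by positivity)
  filter_upwards [h1] with i hi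
  rw [dist_zero_right, norm_norm] at hi ⊢
  have e : x i * c - c * x i = (x i * d - d * x i) + (x i * (c - d) - (c - d) * x i) := by
    noncomm_ring
  have h3 : ‖x i * (c - d)‖ ≤ K * (ε / (2 * (2 * K + 1))) :=
    (norm_mul_le _ _).trans (mul_le_mul (hx i) hcd.le (norm_nonneg _) hK)
  have h4 : ‖(c - d) * x i‖ ≤ (ε / (2 * (2 * K + 1))) * K :=
    (norm_mul_le _ _).trans (mul_le_mul hcd.le (hx i) (norm_nonneg _) (by positivity))
  have h2 : ‖x i * (c - d) - (c - d) * x i‖ ≤ 2 * K * (ε / (2 * (2 * K + 1))) := by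
    refine (norm_sub_le _ _).trans ?_
    linarith
  have h5 : 2 * K * (ε / (2 * (2 * K + 1))) < ε / 2 := by
    rw [← sub_pos]
    have : ε / 2 - 2 * K * (ε / (2 * (2 * K + 1))) = ε / (2 * (2 * K + 1)) := by
      field_simp; ring
    rw [this]; positivity
  rw [e]
  exact (norm_add_le _ _).trans_lt (by linarith)

end CommAlg

/-- Asymptotically central commutator sums give `𝒵`-stability. -/
theorem zstable_of_sum {A : Type u} [CStarAlgebra A] [SeparableSpace A] (ι : Type)
    (μ : Filter ι) [NeBot μ] {m : ℕ} {R : ℝ} (a b l r : Fin m → ι → A)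
    (hb : ∀ j i, ‖a j i‖ ≤ R ∧ ‖b j i‖ ≤ R ∧ ‖l j i‖ ≤ R ∧ ‖r j i‖ ≤ R)
    (hc : ∀ j (c : A), Tendsto (fun i => ‖a j i * c - c * a j i‖) μ (𝓝 0) ∧
      Tendsto (fun i => ‖b j i * c - c * b j i‖) μ (𝓝 0) ∧
      Tendsto (fun i => ‖l j i * c - c * l j i‖) μ (𝓝 0) ∧
      Tendsto (fun i => ‖r j i * c - c * r j i‖) μ (𝓝 0))
    (hs : Tendsto (fun i => ‖∑ j, l j i * (a j i * b j i - b j i * a j i) * r j i - 1‖) μ (𝓝 0)) :
    IsZStable A := by
  have hne : IsEmpty (Fcs A μ →⋆ₐ[ℂ] ℂ) := by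
    let a' : Fin m → centralSeq A μ := fun j => ⟨a j, ⟨R, fun i => (hb j i).1⟩, fun c => (hc j c).1⟩
    let b' : Fin m → centralSeq A μ :=
      fun j => ⟨b j, ⟨R, fun i => (hb j i).2.1⟩, fun c => (hc j c).2.1⟩
    let l' : Fin m → centralSeq A μ :=
      fun j => ⟨l j, ⟨R, fun i => (hb j i).2.2.1⟩, fun c => (hc j c).2.2.1⟩
    let r' : Fin m → centralSeq A μ :=
      fun j => ⟨r j, ⟨R, fun i => (hb j i).2.2.2⟩, fun c => (hc j c).2.2.2⟩
    refine noChar_of_sum (F := Fcs A μ) (fun j => (a' j : Fcs A μ)) (fun j => (b' j : Fcs A μ))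
      (fun j => (l' j : Fcs A μ)) (fun j => (r' j : Fcs A μ)) ?_
    have h1 : (∑ j, (l' j : Fcs A μ) * ((a' j : Fcs A μ) * (b' j : Fcs A μ) -
        (b' j : Fcs A μ) * (a' j : Fcs A μ)) * (r' j : Fcs A μ)) =
        ((∑ j, l' j * (a' j * b' j - b' j * a' j) * r' j : centralSeq A μ) : Fcs A μ) := by
      rw [← RingCon.coe_mk', map_sum]
      rfl
    rw [h1]
    refine (RingCon.eq _).2 ?_
    show Tendsto (fun i => ‖((∑ j, l' j * (a' j * b' j - b' j * a' j) * r' j : centralSeq A μ) :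
      ι → A) i - ((1 : centralSeq A μ) : ι → A) i‖) μ (𝓝 0)
    refine hs.congr fun i => ?_
    congr 1
    rw [AddSubmonoidClass.coe_finset_sum, Finset.sum_apply]
    rfl
  exact ⟨fun Z B _ _ hZ => ⟨fun i j hij => iso_of_noChar ι μ hne hZ.isJiangSu i j
    hij.isCStarTensor⟩⟩

theorem infinite_product {D : ℕ → Type v} {B : Type u} [∀ n, CStarAlgebra (D n)]
    [CStarAlgebra B] [SeparableSpace B] (φ : ∀ n, D n →⋆ₐ[ℂ] B) (h : IsInfiniteProduct φ)
    (m : ℕ) (R : ℝ) (hD : ∀ n, CommutatorSum (D n) m R) : IsZStable B := by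
  choose a b l r hn hrel using fun n => (hD n).exists_sum
  have hcen : ∀ (y : ∀ n, D n), (∀ n, ‖y n‖ ≤ R) → ∀ c : B,
      Tendsto (fun n => ‖φ n (y n) * c - c * φ n (y n)‖) atTop (𝓝 0) := by
    intro y hy c
    refine comm_closure atTop (fun n => φ n (y n)) (K := R)
      (fun n => (NonUnitalStarAlgHom.norm_apply_le (φ n) (y n)).trans (hy n))
      (S := ((StarAlgebra.adjoin ℂ (⋃ n, Set.range (φ n)) : StarSubalgebra ℂ B) : Set B)) ?_
      (h.dense c)
    intro c hc
    have hle : StarAlgebra.adjoin ℂ (⋃ n, Set.range (φ n)) ≤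
        commAlg atTop (fun n => φ n (y n)) := by
      rw [StarAlgebra.adjoin_le_iff]
      intro z hz
      obtain ⟨k, z, rfl⟩ := Set.mem_iUnion.1 hz
      have key : ∀ z : D k,
          Tendsto (fun n => ‖φ n (y n) * φ k z - φ k z * φ n (y n)‖) atTop (𝓝 0) := by
        intro z
        refine tendsto_const_nhds.congr' ?_
        filter_upwards [eventually_gt_atTop k] with n hn
        rw [(h.comm n k (by omega) (y n) z).eq, sub_self, norm_zero]
      exact ⟨key z, by rw [← map_star]; exact key (star z)⟩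
    exact (hle hc).1
  refine zstable_of_sum ℕ atTop (R := R) (fun j n => φ n (a n j)) (fun j n => φ n (b n j))
    (fun j n => φ n (l n j)) (fun j n => φ n (r n j)) (fun j n => ?_) (fun j c => ?_) ?_
  · exact ⟨(NonUnitalStarAlgHom.norm_apply_le (φ n) _).trans (hn n j).1,
      (NonUnitalStarAlgHom.norm_apply_le (φ n) _).trans (hn n j).2.1,
      (NonUnitalStarAlgHom.norm_apply_le (φ n) _).trans (hn n j).2.2.1,
      (NonUnitalStarAlgHom.norm_apply_le (φ n) _).trans (hn n j).2.2.2⟩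
  · exact ⟨hcen (fun n => a n j) (fun n => (hn n j).1) c,
      hcen (fun n => b n j) (fun n => (hn n j).2.1) c,
      hcen (fun n => l n j) (fun n => (hn n j).2.2.1) c,
      hcen (fun n => r n j) (fun n => (hn n j).2.2.2) c⟩
  · refine tendsto_const_nhds.congr fun n => ?_
    have := congrArg (φ n) (hrel n)
    rw [map_one, map_sum] at this
    simp only [map_mul, map_sub] at this
    rw [this, sub_self, norm_zero]

end Vale.Agent.P101.H413
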