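import Vale.Agent.P101.StmtHom
import Vale.Agent.P101.StmtStable

/-! Definitions for the tensor power theorem: commuting copies, commutator sums, homs from
dimension drop algebras, infinite tensor products, relative commutants. -/

open Filter Topology
open scoped Kronecker

namespace Vale.Agent.P101

universe u v

/-- `1` is a sum of `m` terms `l j * (a j * b j - b j * a j) * r j` with all factors of norm at most
`R`. -/
structure CommutatorSum (D : Type u) [CStarAlgebra D] (m : ℕ) (R : ℝ) : Prop where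
  exists_sum : ∃ a b l r : Fin m → D,
    (∀ j, ‖a j‖ ≤ R ∧ ‖b j‖ ≤ R ∧ ‖l j‖ ≤ R ∧ ‖r j‖ ≤ R) ∧
    ∑ j, l j * (a j * b j - b j * a j) * r j = 1

/-- There are `n` unital star-homomorphisms `D → B` with pairwise commuting ranges; equivalently,
there is a unital star-homomorphism from the `n`-fold maximal tensor power of `D` to `B`. -/
structure CommutingCopies (D : Type u) (B : Type v) [CStarAlgebra D] [CStarAlgebra B] (n : ℕ) :
    Prop where
  exists_homs : ∃ φ : Fin n → D →⋆ₐ[ℂ] B, ∀ i j, i ≠ j → ∀ x y, Commute (φ i x) (φ j y)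

/-- There is a unital star-homomorphism to `B` from the dimension drop algebra `I(p, q)` of all
continuous `f : [0,1] → M_p ⊗ M_q` with `f 0 ∈ M_p ⊗ 1` and `f 1 ∈ 1 ⊗ M_q`. -/
structure DimDropHom (B : Type v) [CStarAlgebra B] (p q : ℕ) : Prop where
  hom : ∃ S : StarSubalgebra ℂ C(unitInterval, Matrix (Fin p × Fin q) (Fin p × Fin q) ℂ),
    (∀ f, f ∈ S ↔
      (∃ x : Matrix (Fin p) (Fin p) ℂ, f 0 = x ⊗ₖ (1 : Matrix (Fin q) (Fin q) ℂ)) ∧
      (∃ y : Matrix (Fin q) (Fin q) ℂ, f 1 = (1 : Matrix (Fin p) (Fin p) ℂ) ⊗ₖ y)) ∧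
    Nonempty (S →⋆ₐ[ℂ] B)

/-- `B` is, via the unital star-homomorphisms `φ n : D n → B`, a C*-completion of a quotient of the
infinite algebraic tensor product of the unital C*-algebras `D n`: the ranges commute pairwise and
together they generate `B` as a C*-algebra. -/
structure IsInfiniteProduct {D : ℕ → Type v} {B : Type u} [∀ n, CStarAlgebra (D n)]
    [CStarAlgebra B] (φ : ∀ n, D n →⋆ₐ[ℂ] B) : Prop where
  comm : ∀ i j, i ≠ j → ∀ x y, Commute (φ i x) (φ j y)
  dense : Dense ((StarAlgebra.adjoin ℂ (⋃ n, Set.range (φ n)) : StarSubalgebra ℂ B) : Set B)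

/-- `x` represents an element of `A_ω ∩ C*(S)'`: a bounded sequence with `‖x n * a - a * x n‖ → 0`
and `‖x n * a* - a* * x n‖ → 0` along `ω` for every `a ∈ S`. -/
structure IsCentralOver {A : Type u} [CStarAlgebra A] (S : Set A) (ω : Filter ℕ) (x : ℕ → A) :
    Prop where
  bounded : ∃ C : ℝ, ∀ n, ‖x n‖ ≤ C
  central : ∀ a ∈ S, Tendsto (fun n => ‖x n * a - a * x n‖) ω (𝓝 0) ∧
    Tendsto (fun n => ‖x n * star a - star a * x n‖) ω (𝓝 0)

/-- `χ` is a character of the relative commutant `A_ω ∩ C*(S)'`, given by its values on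
representing sequences. -/
structure IsCharacterOver {A : Type u} [CStarAlgebra A] (S : Set A) (ω : Filter ℕ)
    (χ : (ℕ → A) → ℂ) : Prop where
  null : ∀ x, IsCentralOver S ω x → Tendsto (fun n => ‖x n‖) ω (𝓝 0) → χ x = 0
  one : χ 1 = 1
  add : ∀ x y, IsCentralOver S ω x → IsCentralOver S ω y → χ (x + y) = χ x + χ y
  mul : ∀ x y, IsCentralOver S ω x → IsCentralOver S ω y → χ (x * y) = χ x * χ y
  smul : ∀ (c : ℂ) (x), IsCentralOver S ω x → χ (c • x) = c * χ x
  star : ∀ x, IsCentralOver S ω x → χ (star x) = star (χ x)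

/-- Every countable subset of `A` is contained in a separable `𝒵`-stable C*-subalgebra of `A` with
the same unit. -/
structure IsSeparablyZStable (A : Type u) [CStarAlgebra A] : Prop where
  exists_subalgebra : ∀ S : Set A, S.Countable →
    ∃ (C : StarSubalgebra ℂ A) (_ : IsClosed (C : Set A)),
      S ⊆ C ∧ TopologicalSpace.IsSeparable (C : Set A) ∧ IsZStable C

end Vale.Agent.P101
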