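import Vale.Agent.P101.H413.Nonsep

/-! The combined theorem: uniform finite-stage version, infinite tensor products, algebras of
arbitrary density. -/

open Filter Topology TopologicalSpace

namespace Vale.Agent.P101.H413

universe u v

theorem infinite_power {D : Type v} {B : Type u} [CStarAlgebra D] [CStarAlgebra B]
    [SeparableSpace B] (hD : IsEmpty (D →⋆ₐ[ℂ] ℂ)) (φ : ℕ → D →⋆ₐ[ℂ] B)
    (h : IsInfiniteProduct (D := fun _ => D) φ) : IsZStable B := by
  obtain ⟨m, R, hR⟩ := commutatorSum_of_noChar hD
  exact infinite_product (D := fun _ => D) φ h m R fun _ => hR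

end Vale.Agent.P101.H413
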