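import Vale.Agent.P101.H413.Comm

/-! C*-algebras of arbitrary density: characterless relative commutants of countable sets. -/

open Filter Topology TopologicalSpace

namespace Vale.Agent.P101.H413

open SeqQuot

universe u v w

section Over

variable {A : Type u} [CStarAlgebra A] {ι : Type v}

/-- Bounded functions commuting asymptotically with `S` and its adjoints. -/
def overSeq (S : Set A) (μ : Filter ι) : StarSubalgebra ℂ (ι → A) where
  carrier := {x | (∃ C : ℝ, ∀ i, ‖x i‖ ≤ C) ∧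
    ∀ a : A, (a ∈ S ∨ star a ∈ S) → Tendsto (fun i => ‖x i * a - a * x i‖) μ (𝓝 0)}
  mul_mem' := by
    rintro x y ⟨⟨C, hC⟩, hx⟩ ⟨⟨D, hD⟩, hy⟩
    refine ⟨⟨C * D, fun i => ?_⟩, fun a ha => ?_⟩
    · exact (norm_mul_le _ _).trans
        (mul_le_mul (hC i) (hD i) (norm_nonneg _) ((norm_nonneg _).trans (hC i)))
    · have h : Tendsto (fun i => C * ‖y i * a - a * y i‖ + ‖x i * a - a * x i‖ * D) μ (𝓝 0) := by
        simpa using ((hy a ha).const_mul C).add ((hx a ha).mul_const D)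
      refine squeeze_zero (fun i => norm_nonneg _) (fun i => ?_) h
      have e : (x * y) i * a - a * (x * y) i
          = x i * (y i * a - a * y i) + (x i * a - a * x i) * y i := by
        simp only [Pi.mul_apply]; noncomm_ring
      rw [e]
      refine (norm_add_le _ _).trans (add_le_add ?_ ?_)
      · exact (norm_mul_le _ _).trans (mul_le_mul_of_nonneg_right (hC i) (norm_nonneg _))
      · exact (norm_mul_le _ _).trans (mul_le_mul_of_nonneg_left (hD i) (norm_nonneg _))
  add_mem' := by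
    rintro x y ⟨⟨C, hC⟩, hx⟩ ⟨⟨D, hD⟩, hy⟩
    refine ⟨⟨C + D, fun i => (norm_add_le _ _).trans (add_le_add (hC i) (hD i))⟩, fun a ha => ?_⟩
    have h : Tendsto (fun i => ‖x i * a - a * x i‖ + ‖y i * a - a * y i‖) μ (𝓝 0) := by
      simpa using (hx a ha).add (hy a ha)
    refine squeeze_zero (fun i => norm_nonneg _) (fun i => ?_) h
    have e : (x + y) i * a - a * (x + y) i = (x i * a - a * x i) + (y i * a - a * y i) := by
      simp only [Pi.add_apply]; noncomm_ring
    rw [e]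
    exact norm_add_le _ _
  algebraMap_mem' := by
    intro r
    refine ⟨⟨‖algebraMap ℂ A r‖, fun i => le_rfl⟩, fun a _ => ?_⟩
    have : (fun i : ι => ‖(algebraMap ℂ (ι → A) r) i * a - a * (algebraMap ℂ (ι → A) r) i‖)
        = fun _ => (0 : ℝ) := by
      funext i
      simp [Pi.algebraMap_apply, Algebra.commutes r a]
    rw [this]
    exact tendsto_const_nhds
  star_mem' := by
    rintro x ⟨⟨C, hC⟩, hx⟩
    refine ⟨⟨C, fun i => by simpa using hC i⟩, fun a ha => ?_⟩
    refine (hx (star a) (by rw [star_star]; exact ha.symm)).congr (fun i => ?_)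
    have e : (star x) i * a - a * (star x) i = -star (x i * star a - star a * x i) := by
      simp only [Pi.star_apply, star_sub, star_mul, star_star]; noncomm_ring
    rw [e, norm_neg, norm_star]

theorem isSeqAlg_overSeq (S : Set A) (μ : Filter ι) : IsSeqAlg μ (overSeq S μ) where
  bdd x hx := hx.1
  cut := by
    rintro x ⟨⟨K, hK⟩, hx⟩ s hs
    refine ⟨⟨K, fun i => ?_⟩, fun a ha => ?_⟩
    · by_cases hi : i ∈ s
      · rw [Set.indicator_of_mem hi]; exact hK i
      · rw [Set.indicator_of_notMem hi, norm_zero]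
        exact (norm_nonneg _).trans (hK i)
    · refine (hx a ha).congr' ?_
      filter_upwards [hs] with i hi
      rw [Set.indicator_of_mem hi]
  lim := by
    intro x hx
    refine ⟨?_, fun a ha => ?_⟩
    · obtain ⟨y, ⟨⟨K, hK⟩, -⟩, hy⟩ := hx 1 one_pos
      refine ⟨1 + K, fun i => ?_⟩
      calc ‖x i‖ = ‖(x i - y i) + y i‖ := by rw [sub_add_cancel]
        _ ≤ 1 + K := (norm_add_le _ _).trans (add_le_add (hy i) (hK i))
    · rw [Metric.tendsto_nhds]
      intro ε hε
      obtain ⟨y, ⟨-, hyc⟩, hy⟩ := hx (ε / (2 * (2 * ‖a‖ + 1))) (by positivity)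
      have h1 := (Metric.tendsto_nhds.mp (hyc a ha)) (ε / 2) (by positivity)
      filter_upwards [h1] with i hi
      rw [dist_zero_right, norm_norm] at hi ⊢
      have e : x i * a - a * x i = (y i * a - a * y i) +
          ((x i - y i) * a - a * (x i - y i)) := by noncomm_ring
      have h2 : ‖(x i - y i) * a - a * (x i - y i)‖ ≤
          2 * ‖a‖ * (ε / (2 * (2 * ‖a‖ + 1))) := by
        refine (norm_sub_le _ _).trans ?_
        have h3 : ‖(x i - y i) * a‖ ≤ (ε / (2 * (2 * ‖a‖ + 1))) * ‖a‖ :=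
          (norm_mul_le _ _).trans (mul_le_mul_of_nonneg_right (hy i) (norm_nonneg _))
        have h4 : ‖a * (x i - y i)‖ ≤ ‖a‖ * (ε / (2 * (2 * ‖a‖ + 1))) :=
          (norm_mul_le _ _).trans (mul_le_mul_of_nonneg_left (hy i) (norm_nonneg _))
        linarith
      have h5 : 2 * ‖a‖ * (ε / (2 * (2 * ‖a‖ + 1))) < ε / 2 := by
        rw [← sub_pos]
        have : ε / 2 - 2 * ‖a‖ * (ε / (2 * (2 * ‖a‖ + 1))) = ε / (2 * (2 * ‖a‖ + 1)) := by
          field_simp; ring
        rw [this]; positivity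
      rw [e]
      exact (norm_add_le _ _).trans_lt (by linarith)

/-- The relative commutant `A_μ ∩ C*(S)'`. -/
abbrev Oq (S : Set A) (μ : Filter ι) : Type (max u v) :=
  (nullConG μ (overSeq S μ) (isSeqAlg_overSeq S μ)).Quotient

noncomputable instance instStarRingOq (S : Set A) (μ : Filter ι) : StarRing (Oq S μ) where
  star := Quotient.map' star (fun x y h => by
    refine Tendsto.congr (fun i => ?_) h
    show _ = ‖((star x : overSeq S μ) : ι → A) i - ((star y : overSeq S μ) : ι → A) i‖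
    rw [show ((star x : overSeq S μ) : ι → A) i - ((star y : overSeq S μ) : ι → A) i
      = star ((x : ι → A) i - (y : ι → A) i) by simp, norm_star])
  star_involutive := by
    rintro ⟨x⟩
    exact congrArg (Quotient.mk'' (s₁ := (nullConG μ (overSeq S μ)
      (isSeqAlg_overSeq S μ)).toSetoid)) (star_star x)
  star_mul := by
    rintro ⟨x⟩ ⟨y⟩
    exact congrArg (Quotient.mk'' (s₁ := (nullConG μ (overSeq S μ)
      (isSeqAlg_overSeq S μ)).toSetoid)) (star_mul x y)
  star_add := by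
    rintro ⟨x⟩ ⟨y⟩
    exact congrArg (Quotient.mk'' (s₁ := (nullConG μ (overSeq S μ)
      (isSeqAlg_overSeq S μ)).toSetoid)) (star_add x y)

noncomputable instance instCStarOq (S : Set A) (μ : Filter ι) : CStarAlgebra (Oq S μ) :=
  cstar (isSeqAlg_overSeq S μ) (nullConG μ (overSeq S μ) (isSeqAlg_overSeq S μ))
    (fun _ _ => Iff.rfl) inferInstance (fun _ => rfl)

end Over

section Sum

variable {A : Type u} [CStarAlgebra A]

theorem isCentralOver_iff (S : Set A) (ω : Filter ℕ) (x : ℕ → A) :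
    IsCentralOver S ω x ↔ x ∈ overSeq S ω := by
  constructor
  · rintro ⟨h1, h2⟩
    refine ⟨h1, fun a ha => ?_⟩
    rcases ha with ha | ha
    · exact (h2 a ha).1
    · have := (h2 _ ha).2
      rwa [star_star] at this
  · rintro ⟨h1, h2⟩
    exact ⟨h1, fun a ha => ⟨h2 a (Or.inl ha), h2 _ (Or.inr (by rwa [star_star]))⟩⟩

theorem isEmpty_of_not_charOver (S : Set A) (ω : Filter ℕ)
    (h : ¬ ∃ χ : (ℕ → A) → ℂ, IsCharacterOver S ω χ) : IsEmpty (Oq S ω →⋆ₐ[ℂ] ℂ) := by
  classical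
  refine ⟨fun χ => h ?_⟩
  have hmem : ∀ x : ℕ → A, IsCentralOver S ω x → x ∈ overSeq S ω :=
    fun x hx => (isCentralOver_iff S ω x).1 hx
  let χ' : (ℕ → A) → ℂ := fun x =>
    if hx : x ∈ overSeq S ω then χ ((⟨x, hx⟩ : overSeq S ω) : Oq S ω) else 0
  have hχ' : ∀ (x : ℕ → A) (hx : x ∈ overSeq S ω),
      χ' x = χ ((⟨x, hx⟩ : overSeq S ω) : Oq S ω) := fun x hx => by
    simp only [χ', dif_pos hx]
  refine ⟨χ', ?_, ?_, ?_, ?_, ?_, ?_⟩
  · intro x hx h0
    rw [hχ' x (hmem x hx)]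
    have : (((⟨x, hmem x hx⟩ : overSeq S ω) : Oq S ω)) = ((0 : overSeq S ω) : Oq S ω) := by
      refine (RingCon.eq _).2 ?_
      show Tendsto (fun i => ‖x i - ((0 : overSeq S ω) : ℕ → A) i‖) ω (𝓝 0)
      simpa using h0
    rw [this, RingCon.coe_zero, map_zero]
  · rw [hχ' 1 (one_mem _)]
    exact map_one χ
  · intro x y hx hy
    rw [hχ' x (hmem x hx), hχ' y (hmem y hy), hχ' _ (add_mem (hmem x hx) (hmem y hy)), ← map_add]
    rfl
  · intro x y hx hy
    rw [hχ' x (hmem x hx), hχ' y (hmem y hy), hχ' _ (mul_mem (hmem x hx) (hmem y hy)), ← map_mul]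
    rfl
  · intro c x hx
    rw [hχ' x (hmem x hx), hχ' _ ((overSeq S ω).smul_mem (hmem x hx) c), ← smul_eq_mul,
      ← map_smul]
    rfl
  · intro x hx
    rw [hχ' x (hmem x hx), hχ' _ (star_mem (hmem x hx)), ← map_star]
    rfl

/-- Commutator sums in a relative commutant, in terms of sequences. -/
def SeqSum (S : Set A) (ω : Filter ℕ) (m : ℕ) (R : ℝ) : Prop :=
  ∃ a b l r : Fin m → ℕ → A,
    (∀ j n, ‖a j n‖ ≤ R ∧ ‖b j n‖ ≤ R ∧ ‖l j n‖ ≤ R ∧ ‖r j n‖ ≤ R) ∧
    (∀ j, a j ∈ overSeq S ω ∧ b j ∈ overSeq S ω ∧ l j ∈ overSeq S ω ∧ r j ∈ overSeq S ω) ∧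
    Tendsto (fun n => ‖∑ j, l j n * (a j n * b j n - b j n * a j n) * r j n - 1‖) ω (𝓝 0)

theorem seqSum_of_isEmpty (S : Set A) (ω : Filter ℕ) (h : IsEmpty (Oq S ω →⋆ₐ[ℂ] ℂ)) :
    ∃ m R, SeqSum S ω m R := by
  obtain ⟨m, R₀, hsum⟩ := commutatorSum_of_noChar h
  obtain ⟨a, b, l, r, -, hrel⟩ := hsum.exists_sum
  have hsurj : ∀ y : Oq S ω, ∃ x : overSeq S ω, (x : Oq S ω) = y := fun y =>
    Quotient.mk''_surjective (s₁ := (nullConG ω (overSeq S ω) (isSeqAlg_overSeq S ω)).toSetoid) y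
  choose f hf using hsurj
  choose K hK using fun y : Oq S ω => (f y).2.1
  have hle : ∀ (y : Oq S ω) n, ‖(f y : ℕ → A) n‖ ≤ |K y| := fun y n => (hK y n).trans (le_abs_self _)
  refine ⟨m, ∑ j, (|K (a j)| + |K (b j)| + |K (l j)| + |K (r j)|), fun j => (f (a j) : ℕ → A),
    fun j => (f (b j) : ℕ → A), fun j => (f (l j) : ℕ → A), fun j => (f (r j) : ℕ → A),
    fun j n => ?_, fun j => ⟨(f (a j)).2, (f (b j)).2, (f (l j)).2, (f (r j)).2⟩, ?_⟩
  · have h1 : |K (a j)| + |K (b j)| + |K (l j)| + |K (r j)| ≤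
        ∑ j, (|K (a j)| + |K (b j)| + |K (l j)| + |K (r j)|) :=
      Finset.single_le_sum (f := fun j => |K (a j)| + |K (b j)| + |K (l j)| + |K (r j)|)
        (fun i _ => by positivity) (Finset.mem_univ j)
    have := abs_nonneg (K (a j))
    have := abs_nonneg (K (b j))
    have := abs_nonneg (K (l j))
    have := abs_nonneg (K (r j))
    refine ⟨(hle _ n).trans ?_, (hle _ n).trans ?_, (hle _ n).trans ?_, (hle _ n).trans ?_⟩ <;>
      linarith
  · have h1 : (∑ j, ((f (l j) : overSeq S ω) : Oq S ω) * (((f (a j) : overSeq S ω) : Oq S ω) *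
        ((f (b j) : overSeq S ω) : Oq S ω) - ((f (b j) : overSeq S ω) : Oq S ω) *
        ((f (a j) : overSeq S ω) : Oq S ω)) * ((f (r j) : overSeq S ω) : Oq S ω)) =
        ((∑ j, f (l j) * (f (a j) * f (b j) - f (b j) * f (a j)) * f (r j) : overSeq S ω) :
          Oq S ω) := by
      rw [← RingCon.coe_mk', map_sum]
      rfl
    simp only [hf] at h1
    rw [hrel] at h1
    have h2 := (RingCon.eq _).1 h1.symm
    have h3 : Tendsto (fun i => ‖((∑ j, f (l j) * (f (a j) * f (b j) - f (b j) * f (a j)) *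
      f (r j) : overSeq S ω) : ℕ → A) i - ((1 : overSeq S ω) : ℕ → A) i‖) ω (𝓝 0) := h2
    refine h3.congr fun i => ?_
    congr 1
    rw [AddSubmonoidClass.coe_finsetSum, Finset.sum_apply]
    rfl

theorem overSeq_mono {S T : Set A} (h : S ⊆ T) (ω : Filter ℕ) : overSeq T ω ≤ overSeq S ω :=
  fun _ hx => ⟨hx.1, fun a ha => hx.2 a (ha.imp (fun ha => h ha) fun ha => h ha)⟩

theorem SeqSum.mono {S T : Set A} (h : S ⊆ T) {ω : Filter ℕ} {m : ℕ} {R : ℝ}
    (hT : SeqSum T ω m R) {m' : ℕ} {R' : ℝ} (hm : m ≤ m') (hR : R ≤ R') (hR' : 0 ≤ R') :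
    SeqSum S ω m' R' := by
  obtain ⟨a, b, l, r, h1, h2, h3⟩ := hT
  let e : (Fin m → ℕ → A) → Fin m' → ℕ → A := fun x j n =>
    if hj : (j : ℕ) < m then x ⟨j, hj⟩ n else 0
  have e1 : ∀ (x : Fin m → ℕ → A), (∀ j n, ‖x j n‖ ≤ R) → ∀ j n, ‖e x j n‖ ≤ R' := by
    intro x hx j n
    simp only [e]
    split_ifs with hj
    · exact (hx _ n).trans hR
    · simpa using hR'
  have e2 : ∀ (x : Fin m → ℕ → A), (∀ j, x j ∈ overSeq T ω) → ∀ j, e x j ∈ overSeq S ω := by
    intro x hx j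
    by_cases hj : (j : ℕ) < m
    · have : e x j = x ⟨j, hj⟩ := by
        funext n
        simp only [e, dif_pos hj]
      rw [this]
      exact overSeq_mono h ω (hx _)
    · have : e x j = 0 := by
        funext n
        simp only [e, dif_neg hj]
        rfl
      rw [this]
      exact zero_mem _
  refine ⟨e a, e b, e l, e r, fun j n => ⟨e1 a (fun j n => (h1 j n).1) j n,
    e1 b (fun j n => (h1 j n).2.1) j n, e1 l (fun j n => (h1 j n).2.2.1) j n,
    e1 r (fun j n => (h1 j n).2.2.2) j n⟩, fun j => ⟨e2 a (fun j => (h2 j).1) j,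
    e2 b (fun j => (h2 j).2.1) j, e2 l (fun j => (h2 j).2.2.1) j,
    e2 r (fun j => (h2 j).2.2.2) j⟩, ?_⟩
  refine h3.congr fun n => ?_
  congr 2
  obtain ⟨k, rfl⟩ := Nat.exists_eq_add_of_le hm
  rw [Fin.sum_univ_add]
  simp [e]

end Sum

section Closing

variable {A : Type u} [CStarAlgebra A]

theorem uniform_seqSum (ω : Filter ℕ) (h : ∀ S : Set A, S.Countable → ∃ m R, SeqSum S ω m R) :
    ∃ m R, ∀ S : Set A, S.Countable → SeqSum S ω m R := by
  by_contra hcon
  push Not at hcon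
  choose S hS hS' using fun k : ℕ => hcon k (k : ℝ)
  obtain ⟨m, R, hT⟩ := h (⋃ k, S k) (Set.countable_iUnion hS)
  refine hS' (max m ⌈R⌉₊) (hT.mono (Set.subset_iUnion S _) (le_max_left _ _) ?_ (by positivity))
  exact (Nat.le_ceil R).trans (by exact_mod_cast le_max_right _ _)

theorem isSeparable_adjoin {U : Set A} (hU : U.Countable) :
    IsSeparable ((StarAlgebra.adjoin ℂ U).topologicalClosure : Set A) := by
  rw [StarSubalgebra.topologicalClosure_coe]
  refine IsSeparable.closure ?_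
  have h1 : ((StarAlgebra.adjoin ℂ U : StarSubalgebra ℂ A) : Set A) =
      (Submodule.span ℂ ((Submonoid.closure (U ∪ star U) : Submonoid A) : Set A) : Set A) := by
    rw [← Algebra.adjoin_eq_span]
    rfl
  rw [h1]
  refine IsSeparable.span (Set.Countable.isSeparable ?_)
  rw [Submonoid.closure_eq_image_prod]
  have h2 : (U ∪ star U).Countable := hU.union (by
    rw [← Set.image_star]
    exact hU.image _)
  have : Countable ↥(U ∪ star U) := h2.to_subtype
  refine Set.Countable.mono ?_ (Set.countable_range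
    (fun l : List ↥(U ∪ star U) => (l.map Subtype.val).prod))
  rintro _ ⟨l, hl, rfl⟩
  exact ⟨l.attachWith _ hl, by simp⟩

theorem separablyZStable (ω : Filter ℕ) [NeBot ω]
    (h : ∀ S : Set A, S.Countable → ¬ ∃ χ : (ℕ → A) → ℂ, IsCharacterOver S ω χ) :
    IsSeparablyZStable A := by
  obtain ⟨m, R, hu⟩ := uniform_seqSum ω fun S hS =>
    seqSum_of_isEmpty S ω (isEmpty_of_not_charOver S ω (h S hS))
  refine ⟨fun S₀ hS₀ => ?_⟩
  choose a b l r h1 h2 h3 using fun (S : {S : Set A // S.Countable}) => hu S.1 S.2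
  let nxt : {S : Set A // S.Countable} → {S : Set A // S.Countable} := fun S =>
    ⟨S.1 ∪ ⋃ j, (Set.range (a S j) ∪ Set.range (b S j) ∪ Set.range (l S j) ∪ Set.range (r S j)),
      S.2.union (Set.countable_iUnion fun j => (((Set.countable_range _).union
        (Set.countable_range _)).union (Set.countable_range _)).union (Set.countable_range _))⟩
  let T : ℕ → {S : Set A // S.Countable} := fun k => nxt^[k] ⟨S₀, hS₀⟩
  have hT : ∀ k, T (k + 1) = nxt (T k) := fun k => Function.iterate_succ_apply' nxt k _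
  have hmono : Monotone fun k => (T k).1 := monotone_nat_of_le_succ fun k => by
    change (T k).1 ⊆ (T (k + 1)).1
    rw [hT]
    exact Set.subset_union_left
  set U : Set A := ⋃ k, (T k).1 with hU
  have hUc : U.Countable := Set.countable_iUnion fun k => (T k).2
  set C : StarSubalgebra ℂ A := (StarAlgebra.adjoin ℂ U).topologicalClosure with hCdef
  have hC : IsClosed (C : Set A) := StarSubalgebra.isClosed_topologicalClosure _
  have hsub : U ⊆ C := (StarAlgebra.subset_adjoin ℂ U).trans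
    (StarSubalgebra.le_topologicalClosure _)
  have hsep : IsSeparable (C : Set A) := isSeparable_adjoin hUc
  refine ⟨C, hC, (Set.subset_iUnion (fun k => (T k).1) 0).trans hsub, hsep, ?_⟩
  have _ : SeparableSpace C := hsep.separableSpace
  -- membership
  have hmem : ∀ k j n, a (T k) j n ∈ C ∧ b (T k) j n ∈ C ∧ l (T k) j n ∈ C ∧ r (T k) j n ∈ C := by
    intro k j n
    have key : ∀ z, z ∈ (Set.range (a (T k) j) ∪ Set.range (b (T k) j) ∪ Set.range (l (T k) j) ∪
        Set.range (r (T k) j)) → z ∈ C := by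
      intro z hz
      refine hsub (Set.mem_iUnion.2 ⟨k + 1, ?_⟩)
      rw [hT]
      exact Or.inr (Set.mem_iUnion.2 ⟨j, hz⟩)
    exact ⟨key _ (Or.inl (Or.inl (Or.inl ⟨n, rfl⟩))), key _ (Or.inl (Or.inl (Or.inr ⟨n, rfl⟩))),
      key _ (Or.inl (Or.inr ⟨n, rfl⟩)), key _ (Or.inr ⟨n, rfl⟩)⟩
  -- centrality
  have hcen : ∀ x : {S : Set A // S.Countable} → ℕ → A, (∀ S n, ‖x S n‖ ≤ R) →
      (∀ S, x S ∈ overSeq S.1 ω) → ∀ c ∈ C,
      Tendsto (fun p : ℕ × ℕ => ‖x (T p.1) p.2 * c - c * x (T p.1) p.2‖)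
        ((atTop : Filter ℕ).curry ω) (𝓝 0) := by
    intro x hx hx' c hc
    refine comm_closure _ (fun p : ℕ × ℕ => x (T p.1) p.2) (fun p => hx _ _)
      (S := ((StarAlgebra.adjoin ℂ U : StarSubalgebra ℂ A) : Set A)) ?_ ?_
    · intro c hc
      have hle : StarAlgebra.adjoin ℂ U ≤
          commAlg ((atTop : Filter ℕ).curry ω) (fun p : ℕ × ℕ => x (T p.1) p.2) := by
        rw [StarAlgebra.adjoin_le_iff]
        intro z hz
        obtain ⟨k₀, hz⟩ := Set.mem_iUnion.1 hz
        have key : ∀ y : A, (y ∈ (T k₀).1 ∨ star y ∈ (T k₀).1) →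
            Tendsto (fun p : ℕ × ℕ => ‖x (T p.1) p.2 * y - y * x (T p.1) p.2‖)
              ((atTop : Filter ℕ).curry ω) (𝓝 0) := by
          intro y hy
          refine Filter.Tendsto.curry (f := fun k n => ‖x (T k) n * y - y * x (T k) n‖) ?_
          filter_upwards [eventually_ge_atTop k₀] with k hk
          exact (hx' (T k)).2 y (hy.imp (fun h => hmono hk h) fun h => hmono hk h)
        exact ⟨key z (Or.inl hz), key (star z) (Or.inr (by rwa [star_star]))⟩
      exact (hle hc).1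
    · rw [← StarSubalgebra.topologicalClosure_coe]
      exact hc
  have _ : NeBot ((atTop : Filter ℕ).curry ω) := curry_neBot ω atTop
  refine @zstable_of_sum C (StarSubalgebra.cstarAlgebra C) _ (ℕ × ℕ)
    ((atTop : Filter ℕ).curry ω) _ m R
    (fun j p => ⟨a (T p.1) j p.2, (hmem p.1 j p.2).1⟩)
    (fun j p => ⟨b (T p.1) j p.2, (hmem p.1 j p.2).2.1⟩)
    (fun j p => ⟨l (T p.1) j p.2, (hmem p.1 j p.2).2.2.1⟩)
    (fun j p => ⟨r (T p.1) j p.2, (hmem p.1 j p.2).2.2.2⟩)
    (fun j p => h1 (T p.1) j p.2) (fun j c => ⟨?_, ?_, ?_, ?_⟩) ?_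
  · exact hcen (fun S n => a S j n) (fun S n => (h1 S j n).1) (fun S => (h2 S j).1) c c.2
  · exact hcen (fun S n => b S j n) (fun S n => (h1 S j n).2.1) (fun S => (h2 S j).2.1) c c.2
  · exact hcen (fun S n => l S j n) (fun S n => (h1 S j n).2.2.1) (fun S => (h2 S j).2.2.1) c c.2
  · exact hcen (fun S n => r S j n) (fun S n => (h1 S j n).2.2.2) (fun S => (h2 S j).2.2.2) c c.2
  · have hrel : Tendsto (fun p : ℕ × ℕ => ‖∑ j, l (T p.1) j p.2 * (a (T p.1) j p.2 *
        b (T p.1) j p.2 - b (T p.1) j p.2 * a (T p.1) j p.2) * r (T p.1) j p.2 - 1‖)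
        ((atTop : Filter ℕ).curry ω) (𝓝 0) :=
      Filter.Tendsto.curry (f := fun k n => ‖∑ j, l (T k) j n * (a (T k) j n *
        b (T k) j n - b (T k) j n * a (T k) j n) * r (T k) j n - 1‖)
        (Eventually.of_forall fun k => h3 (T k))
    refine hrel.congr fun p => ?_
    have hn : ∀ y : C, ‖(y : A)‖ = @norm C (StarSubalgebra.cstarAlgebra C).toNorm y := fun _ => rfl
    rw [← hn]
    congr 1
    rw [AddSubgroupClass.coe_sub, AddSubmonoidClass.coe_finsetSum]
    rfl

end Closing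

end Vale.Agent.P101.H413
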