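import Vale.Agent.P101.H413.Univ

/-! Characterless algebras and commutator sums; infinite tensor products. -/

open Filter Topology
open scoped ENNReal

namespace Vale.Agent.P101.H413

universe u v w

theorem noChar_of_sum {F : Type u} [Ring F] [StarRing F] [Algebra ℂ F] {m : ℕ}
    (a b l r : Fin m → F) (h : ∑ j, l j * (a j * b j - b j * a j) * r j = 1) :
    IsEmpty (F →⋆ₐ[ℂ] ℂ) := by
  refine ⟨fun χ => ?_⟩
  have h1 := congrArg χ h
  rw [map_one, map_sum] at h1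
  simp only [map_mul, map_sub] at h1
  have h2 : ∀ x y z w : ℂ, x * (y * z - z * y) * w = 0 := fun x y z w => by ring
  simp only [h2, Finset.sum_const_zero] at h1
  exact zero_ne_one h1

theorem commutatorSum_of_noChar {D : Type u} [CStarAlgebra D] (h : IsEmpty (D →⋆ₐ[ℂ] ℂ)) :
    ∃ m R, CommutatorSum D m R := by
  obtain ⟨n, l, x, r, hx, hsum⟩ := (step1 h).exists_sum
  choose a b _ hab using hx
  refine ⟨n, ∑ j, (‖a j‖ + ‖b j‖ + ‖l j‖ + ‖r j‖), ⟨a, b, l, r, fun j => ?_, ?_⟩⟩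
  · have h1 : ‖a j‖ + ‖b j‖ + ‖l j‖ + ‖r j‖ ≤ ∑ j, (‖a j‖ + ‖b j‖ + ‖l j‖ + ‖r j‖) :=
      Finset.single_le_sum (f := fun j => ‖a j‖ + ‖b j‖ + ‖l j‖ + ‖r j‖)
        (fun i _ => by positivity) (Finset.mem_univ j)
    have := norm_nonneg (a j)
    have := norm_nonneg (b j)
    have := norm_nonneg (l j)
    have := norm_nonneg (r j)
    refine ⟨?_, ?_, ?_, ?_⟩ <;> linarith
  · simpa only [hab] using hsum

theorem isEmpty_iff_sum (D : Type u) [CStarAlgebra D] :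
    IsEmpty (D →⋆ₐ[ℂ] ℂ) ↔ ∃ m R, CommutatorSum D m R :=
  ⟨commutatorSum_of_noChar, fun ⟨_, _, h⟩ => by
    obtain ⟨a, b, l, r, -, h⟩ := h.exists_sum
    exact noChar_of_sum a b l r h⟩

theorem dimDropHom_iff (B : Type v) [CStarAlgebra B] (p q : ℕ) :
    DimDropHom B p q ↔ Nonempty (dimDrop p q →⋆ₐ[ℂ] B) := by
  refine ⟨fun h => ?_, fun h => ⟨⟨dimDrop p q, fun f => Iff.rfl, h⟩⟩⟩
  obtain ⟨S, hS, e⟩ := h.hom
  have : S = dimDrop p q := by
    ext f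
    rw [hS f]
    rfl
  rw [← this]
  exact e

theorem uniform' (m : ℕ) (R : ℝ) (p q : ℕ) (hp : 0 < p) (hq : 0 < q) (hpq : Nat.Coprime p q) :
    ∃ N : ℕ, ∀ (D : Type u) (B : Type v) [CStarAlgebra D] [CStarAlgebra B],
      CommutatorSum D m R → CommutingCopies D B N → DimDropHom B p q := by
  obtain ⟨N, hN⟩ := uniform.{u, v} m R p q hp hq hpq
  exact ⟨N, fun D B _ _ h1 h2 => (dimDropHom_iff B p q).2 (hN D B h1 h2)⟩

theorem isEmpty_iff_copies (D : Type u) [CStarAlgebra D] :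
    IsEmpty (D →⋆ₐ[ℂ] ℂ) ↔ ∃ n, ∀ (B : Type v) [CStarAlgebra B],
      CommutingCopies D B n → DimDropHom B 2 3 := by
  constructor
  · intro h
    obtain ⟨m, R, hD⟩ := commutatorSum_of_noChar h
    obtain ⟨N, hN⟩ := uniform'.{u, v} m R 2 3 (by norm_num) (by norm_num) (by norm_num)
    exact ⟨N, fun B _ hB => hN D B hD hB⟩
  · rintro ⟨n, hn⟩
    refine ⟨fun χ => ?_⟩
    have h1 : CommutingCopies D C(PUnit.{v + 1}, ℂ) n :=
      ⟨⟨fun _ => (StarAlgHom.ofId ℂ C(PUnit.{v + 1}, ℂ)).comp χ,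
        fun _ _ _ x y => Commute.all _ _⟩⟩
    obtain ⟨Φ⟩ := (dimDropHom_iff _ 2 3).1 (hn _ h1)
    exact (NoChar.isEmpty 2 3 le_rfl (by norm_num)).false
      ((ContinuousMap.evalStarAlgHom ℂ ℂ PUnit.unit).comp Φ)

end Vale.Agent.P101.H413
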