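import Vale.Agent.P101.Bdl.B2
import Vale.Agent.P101.H413.Defs
import Mathlib.Analysis.CStarAlgebra.lpSpace

/-! The steps of the proof in an abstract family of C*-algebras that is closed under commuting
copies, and the universal family of this kind. -/

open scoped ENNReal

namespace Vale.Agent.P101.H413

universe u v w

section Abstract

variable {T : Type → Type w} [∀ κ, CStarAlgebra (T κ)]

theorem nilpotent_of_legs
    (legs : ∀ (ν κ : Type), Nonempty (Legs ν (T κ) (T (ν × κ))))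
    (κ : Type) [Finite κ] (h : IsEmpty (T κ →⋆ₐ[ℂ] ℂ)) :
    ∃ (κ' : Type) (_ : Finite κ') (X : T κ'), X * X = 0 ∧ Full {X} := by
  -- step 1
  obtain ⟨n, l, x, r, hx, hsum⟩ := (step1 h).exists_sum
  choose a b ha hab using hx
  have hfull : Full {y : T κ | ∃ j b, y = a j * b - b * a j} :=
    Full.of_sum Finset.univ l x r (fun i _ => ⟨i, b i, hab i⟩) hsum
  -- step 2
  obtain ⟨L₂⟩ := legs (Fin (n + 1)) κ
  obtain ⟨q, hq, hqf⟩ := step2 n a ha hfull L₂
  -- step 3
  obtain ⟨D⟩ := step3 q hq hqf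
  -- step 4
  obtain ⟨L₄⟩ := legs (Fin (3 * D.M + 2)) (Fin (n + 1) × κ)
  obtain ⟨ξ, hξ, hξf⟩ := step4 D L₄
  -- nilpotents
  obtain ⟨n', l', x', r', hx', hsum'⟩ := D.full.exists_sum
  have hnil : ∀ i, x' i * x' i = 0 := by
    intro i
    obtain ⟨s, t, b, hst, hi⟩ := hx' i
    have h0 : D.f t * D.f s = 0 := D.orth t s (by rw [abs_sub_comm]; omega)
    rw [hi, show D.f s * b * D.f t * (D.f s * b * D.f t)
      = D.f s * b * (D.f t * D.f s) * b * D.f t by noncomm_ring, h0]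
    simp
  let σ : T (Fin (n + 1) × κ) →⋆ₐ[ℂ] T (Fin (3 * D.M + 2) × (Fin (n + 1) × κ)) :=
    L₄.σ ⟨0, by omega⟩
  have hfull' : Full (Set.range fun i => σ (x' i)) := by
    refine Full.of_sum Finset.univ (fun i => σ (l' i)) (fun i => σ (x' i)) (fun i => σ (r' i))
      (fun i _ => ⟨i, rfl⟩) ?_
    rw [← map_one σ, ← hsum', map_sum]
    simp
  have hnil' : ∀ i, σ (x' i) * σ (x' i) = 0 := fun i => by rw [← map_mul, hnil, map_zero]
  -- step 5
  obtain ⟨L₅⟩ := legs (Fin (n' + 1)) (Fin (3 * D.M + 2) × (Fin (n + 1) × κ))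
  obtain ⟨X, hX, hXf⟩ := step5 n' (fun i => σ (x' i)) hnil' hfull' ξ hξ hξf L₅
  exact ⟨_, inferInstance, X, hX, hXf⟩

theorem glueData_of_legs
    (legs : ∀ (ν κ : Type), Nonempty (Legs ν (T κ) (T (ν × κ))))
    (κ : Type) [Finite κ] (h : IsEmpty (T κ →⋆ₐ[ℂ] ℂ)) (l : ℕ) (hl : 0 < l) :
    ∃ (κ' : Type) (_ : Finite κ'), Nonempty (GlueData (Fin l → Bool) Unit (T κ')) := by
  obtain ⟨κ₅, _, X, hX, hXf⟩ := nilpotent_of_legs legs κ h
  obtain ⟨L₆⟩ := legs (Fin l) κ₅
  obtain ⟨D⟩ := step6G X hX hXf l L₆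
  obtain ⟨L₇⟩ := legs (Fin (D.N ^ D.N) ⊕ Fin D.N) (Fin l × κ₅)
  let _ : PartialOrder (T ((Fin (D.N ^ D.N) ⊕ Fin D.N) × (Fin l × κ₅))) :=
    CStarAlgebra.spectralOrder _
  have _ : StarOrderedRing (T ((Fin (D.N ^ D.N) ⊕ Fin D.N) × (Fin l × κ₅))) :=
    CStarAlgebra.spectralOrderedRing _
  obtain ⟨D'⟩ := step7G l hl D L₇
  exact ⟨_, inferInstance, step8G l D'⟩

theorem dimDrop_of_legs
    (legs : ∀ (ν κ : Type), Nonempty (Legs ν (T κ) (T (ν × κ))))
    (κ : Type) [Finite κ] (h : IsEmpty (T κ →⋆ₐ[ℂ] ℂ)) (p q : ℕ) (hp : 0 < p) (hq : 0 < q)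
    (hpq : Nat.Coprime p q) :
    ∃ (κ' : Type) (_ : Finite κ'), Nonempty (dimDrop p q →⋆ₐ[ℂ] T κ') := by
  obtain ⟨κ', h', ⟨D⟩⟩ := glueData_of_legs legs κ h (2 * (p * q)) (by positivity)
  exact ⟨κ', h', dimDrop_hom_of_glueData p q hp hq hpq D⟩

end Abstract

section Linf

variable {I : Type u} {A : I → Type v} [∀ i, Nontrivial (A i)] [∀ i, CStarAlgebra (A i)]

noncomputable instance instLinf : CStarAlgebra (lp A ∞) where

/-- The coordinates of a bounded family. -/
noncomputable def ev (i : I) : lp A ∞ →⋆ₐ[ℂ] A i where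
  toFun x := (x : ∀ i, A i) i
  map_one' := rfl
  map_mul' _ _ := rfl
  map_zero' := rfl
  map_add' _ _ := rfl
  commutes' _ := rfl
  map_star' _ := rfl

theorem continuous_ev (i : I) : Continuous (ev i : lp A ∞ →⋆ₐ[ℂ] A i) :=
  AddMonoidHomClass.continuous_of_bound (ev i : lp A ∞ →⋆ₐ[ℂ] A i) 1 fun x => by
    rw [one_mul]
    exact lp.norm_apply_le_norm ENNReal.top_ne_zero x i

end Linf

section Univ

/-- All systems consisting of a C*-algebra `D` with a commutator sum and of commuting unital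
homs `D → B`, indexed by `κ`. -/
structure Sys (m : ℕ) (R : ℝ) (κ : Type) : Type (max (u + 1) (v + 1)) where
  D : Type u
  B : Type v
  instD : CStarAlgebra D
  instB : CStarAlgebra B
  nt : Nontrivial B
  a : Fin m → D
  b : Fin m → D
  l : Fin m → D
  r : Fin m → D
  ha : ∀ j, ‖a j‖ ≤ R
  hb : ∀ j, ‖b j‖ ≤ R
  hl : ∀ j, ‖l j‖ ≤ R
  hr : ∀ j, ‖r j‖ ≤ R
  rel : ∑ j, l j * (a j * b j - b j * a j) * r j = 1
  L : Legs κ D B

attribute [instance] Sys.instD Sys.instB Sys.nt

variable {m : ℕ} {R : ℝ} {κ κ' : Type}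

/-- Restriction to some of the legs. -/
def Sys.re (e : κ → κ') (he : Function.Injective e) (s : Sys.{u, v} m R κ') : Sys.{u, v} m R κ :=
  { s with L := s.L.reindex e he }

/-- The union of the ranges of the legs. -/
def Sys.cover (s : Sys.{u, v} m R κ) : Set s.B := ⋃ i, Set.range (s.L.σ i)

/-- The bicommutant of the legs. -/
def bic {B : Type v} [CStarAlgebra B] (S : Set B) : StarSubalgebra ℂ B :=
  StarSubalgebra.centralizer ℂ (StarSubalgebra.centralizer ℂ S : Set B)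

theorem subset_bic {B : Type v} [CStarAlgebra B] (S : Set B) : S ⊆ bic S := by
  intro x hx
  refine (StarSubalgebra.mem_centralizer_iff ℂ).2 fun g hg => ?_
  have h1 := (StarSubalgebra.mem_centralizer_iff ℂ).1 hg x hx
  have h2 := (StarSubalgebra.mem_centralizer_iff ℂ).1 (star_mem hg) x hx
  exact ⟨h1.1.symm, h2.1.symm⟩

theorem bic_mono {B : Type v} [CStarAlgebra B] {S S' : Set B} (h : S ⊆ S') : bic S ≤ bic S' := by
  intro x hx
  refine (StarSubalgebra.mem_centralizer_iff ℂ).2 fun g hg => ?_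
  refine (StarSubalgebra.mem_centralizer_iff ℂ).1 hx g ?_
  refine (StarSubalgebra.mem_centralizer_iff ℂ).2 fun y hy => ?_
  exact (StarSubalgebra.mem_centralizer_iff ℂ).1 hg y (h hy)

theorem bic_commute {B : Type v} [CStarAlgebra B] {S S' : Set B} 
    (hS' : ∀ x ∈ S', star x ∈ S') (h : ∀ x ∈ S, ∀ y ∈ S', Commute x y) {x y : B}
    (hx : x ∈ bic S) (hy : y ∈ bic S') : Commute x y := by
  have hyS : y ∈ StarSubalgebra.centralizer ℂ S := by
    refine (StarSubalgebra.mem_centralizer_iff ℂ).2 fun g hg => ?_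
    have hg' : g ∈ StarSubalgebra.centralizer ℂ S' := by
      refine (StarSubalgebra.mem_centralizer_iff ℂ).2 fun z hz => ?_
      exact ⟨(h g hg z hz).eq.symm, (h g hg _ (hS' z hz)).eq.symm⟩
    exact (StarSubalgebra.mem_centralizer_iff ℂ).1 hy g hg'
  exact (((StarSubalgebra.mem_centralizer_iff ℂ).1 hx y hyS).1).symm

theorem isClosed_bic {B : Type v} [CStarAlgebra B] (S : Set B) : IsClosed (bic S : Set B) := by
  have : (bic S : Set B) = ⋂ g ∈ (StarSubalgebra.centralizer ℂ S : Set B),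
      {z : B | g * z = z * g ∧ star g * z = z * star g} := by
    ext z
    simp only [Set.mem_iInter, Set.mem_ofPred_eq, SetLike.mem_coe]
    exact StarSubalgebra.mem_centralizer_iff ℂ
  rw [this]
  refine isClosed_biInter fun g _ => ?_
  exact (isClosed_eq (by fun_prop) (by fun_prop)).inter (isClosed_eq (by fun_prop) (by fun_prop))

/-- The universal algebra, as a subalgebra of a product. -/
noncomputable def uni (m : ℕ) (R : ℝ) (κ : Type) :
    StarSubalgebra ℂ (lp (fun s : Sys.{u, v} m R κ => s.B) ∞) :=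
  ⨅ s, (bic s.cover).comap (ev s)

theorem mem_uni {x : lp (fun s : Sys.{u, v} m R κ => s.B) ∞} :
    x ∈ uni m R κ ↔ ∀ s : Sys.{u, v} m R κ, ev s x ∈ bic s.cover := by
  unfold uni
  rw [StarSubalgebra.mem_iInf]
  rfl

instance isClosed_uni : IsClosed ((uni.{u, v} m R κ : StarSubalgebra ℂ _) :
    Set (lp (fun s : Sys.{u, v} m R κ => s.B) ∞)) := by
  have : ((uni.{u, v} m R κ : StarSubalgebra ℂ _) :
      Set (lp (fun s : Sys.{u, v} m R κ => s.B) ∞)) =
      ⋂ s : Sys.{u, v} m R κ, (ev s) ⁻¹' (bic s.cover : Set s.B) := by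
    ext z
    simp only [Set.mem_iInter, Set.mem_preimage, SetLike.mem_coe]
    exact mem_uni
  rw [this]
  exact isClosed_iInter fun s => (isClosed_bic _).preimage (continuous_ev s)

/-- The universal algebra. -/
abbrev UT (m : ℕ) (R : ℝ) (κ : Type) : Type (max (u + 1) (v + 1)) := uni.{u, v} m R κ

noncomputable instance : CStarAlgebra (UT.{u, v} m R κ) := StarSubalgebra.cstarAlgebra _

theorem cover_star (s : Sys.{u, v} m R κ) : ∀ x ∈ s.cover, star x ∈ s.cover := by
  intro x hx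
  obtain ⟨i, y, rfl⟩ := Set.mem_iUnion.1 hx
  exact Set.mem_iUnion.2 ⟨i, star y, map_star _ _⟩

theorem cover_re (e : κ → κ') (he : Function.Injective e) (s : Sys.{u, v} m R κ') :
    ((s.re e he).cover : Set s.B) ⊆ s.cover := by
  intro x hx
  obtain ⟨i, y, rfl⟩ := Set.mem_iUnion.1 hx
  exact Set.mem_iUnion.2 ⟨e i, y, rfl⟩

/-- The maps between the universal algebras. -/
noncomputable def push (e : κ → κ') (he : Function.Injective e) :
    UT.{u, v} m R κ →⋆ₐ[ℂ] UT.{u, v} m R κ' where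
  toFun x := ⟨⟨fun s => (x : lp (fun s : Sys.{u, v} m R κ => s.B) ∞).1 (s.re e he), memℓp_infty
      ⟨‖(x : lp (fun s : Sys.{u, v} m R κ => s.B) ∞)‖, by
        rintro _ ⟨s, rfl⟩
        exact lp.norm_apply_le_norm ENNReal.top_ne_zero
          (x : lp (fun s : Sys.{u, v} m R κ => s.B) ∞) (s.re e he)⟩⟩,
    mem_uni.2 fun s => bic_mono (cover_re e he s) (mem_uni.1 x.2 (s.re e he))⟩
  map_one' := rfl
  map_mul' _ _ := rfl
  map_zero' := rfl
  map_add' _ _ := rfl
  commutes' _ := rfl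
  map_star' _ := rfl

/-- The coordinates on the universal algebra. -/
noncomputable def co (s : Sys.{u, v} m R κ) : UT.{u, v} m R κ →⋆ₐ[ℂ] s.B :=
  (ev s).comp (StarSubalgebra.subtype _)

theorem ut_ext {x y : UT.{u, v} m R κ} (h : ∀ s, co s x = co s y) : x = y := by
  apply Subtype.ext
  apply lp.ext
  funext s
  exact h s

theorem co_push (e : κ → κ') (he : Function.Injective e) (s : Sys.{u, v} m R κ')
    (x : UT.{u, v} m R κ) : co s (push e he x) = co (s.re e he) x := rfl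

theorem co_mem (s : Sys.{u, v} m R κ) (x : UT.{u, v} m R κ) : co s x ∈ bic s.cover :=
  mem_uni.1 x.2 s

theorem ut_legs (m : ℕ) (R : ℝ) (ν κ : Type) :
    Nonempty (Legs ν (UT.{u, v} m R κ) (UT.{u, v} m R (ν × κ))) := by
  refine ⟨⟨fun i => push (Prod.mk i) (Prod.mk_right_injective i), ?_⟩⟩
  intro i i' hii' x y
  refine ut_ext fun s => ?_
  rw [map_mul, map_mul]
  simp only [co_push]
  refine bic_commute (B := s.B) (S := (s.re (Prod.mk i) (Prod.mk_right_injective i)).cover)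
    (S' := (s.re (Prod.mk i') (Prod.mk_right_injective i')).cover)
    (cover_star (s.re (Prod.mk i') (Prod.mk_right_injective i'))) ?_
    (co_mem (s.re (Prod.mk i) (Prod.mk_right_injective i)) x)
    (co_mem (s.re (Prod.mk i') (Prod.mk_right_injective i')) y)
  intro z hz w hw
  obtain ⟨j, z, rfl⟩ := Set.mem_iUnion.1 hz
  obtain ⟨j', w, rfl⟩ := Set.mem_iUnion.1 hw
  exact s.L.comm (i, j) (i', j') (fun h => hii' (Prod.mk.inj h).1) z w

/-- Elements of the universal algebra from one leg. -/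
noncomputable def gen (g : ∀ s : Sys.{u, v} m R κ, s.D) (hg : ∀ s, ‖g s‖ ≤ R) (i : κ) :
    UT.{u, v} m R κ :=
  ⟨⟨fun s => s.L.σ i (g s), memℓp_infty ⟨R, by
    rintro _ ⟨s, rfl⟩
    exact (NonUnitalStarAlgHom.norm_apply_le (s.L.σ i) (g s)).trans (hg s)⟩⟩,
    mem_uni.2 fun s => subset_bic _ (Set.mem_iUnion.2 ⟨i, g s, rfl⟩)⟩

theorem co_gen (g : ∀ s : Sys.{u, v} m R κ, s.D) (hg : ∀ s, ‖g s‖ ≤ R) (i : κ)
    (s : Sys.{u, v} m R κ) : co s (gen g hg i) = s.L.σ i (g s) := rfl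

theorem ut_noChar (m : ℕ) (R : ℝ) (i : κ) : IsEmpty (UT.{u, v} m R κ →⋆ₐ[ℂ] ℂ) := by
  refine ⟨fun χ => ?_⟩
  have key : ∑ j : Fin m, gen (fun s : Sys.{u, v} m R κ => s.l j) (fun s => s.hl j) i *
      (gen (fun s : Sys.{u, v} m R κ => s.a j) (fun s => s.ha j) i *
        gen (fun s : Sys.{u, v} m R κ => s.b j) (fun s => s.hb j) i -
       gen (fun s : Sys.{u, v} m R κ => s.b j) (fun s => s.hb j) i *
        gen (fun s : Sys.{u, v} m R κ => s.a j) (fun s => s.ha j) i) *
      gen (fun s : Sys.{u, v} m R κ => s.r j) (fun s => s.hr j) i = 1 := by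
    refine ut_ext fun s => ?_
    rw [map_one, map_sum]
    simp only [map_mul, map_sub, co_gen]
    rw [← map_one (s.L.σ i), ← s.rel, map_sum]
    simp only [map_mul, map_sub]
  have h1 := congrArg χ key
  rw [map_one, map_sum] at h1
  simp only [map_mul, map_sub] at h1
  have h2 : ∀ x y z w : ℂ, x * (y * z - z * y) * w = 0 := fun x y z w => by ring
  simp only [h2, Finset.sum_const_zero] at h1
  exact zero_ne_one h1

/-- The zero map to a trivial algebra. -/
theorem hom_of_subsingleton {A : Type u} {B : Type v} [Semiring A] [StarRing A] [Algebra ℂ A]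
    [CStarAlgebra B] [Subsingleton B] : Nonempty (A →⋆ₐ[ℂ] B) :=
  ⟨{ toFun := fun _ => 0
     map_one' := Subsingleton.elim _ _
     map_mul' := fun _ _ => Subsingleton.elim _ _
     map_zero' := Subsingleton.elim _ _
     map_add' := fun _ _ => Subsingleton.elim _ _
     commutes' := fun _ => Subsingleton.elim _ _
     map_star' := fun _ => Subsingleton.elim _ _ }⟩

theorem uniform (m : ℕ) (R : ℝ) (p q : ℕ) (hp : 0 < p) (hq : 0 < q) (hpq : Nat.Coprime p q) :
    ∃ N : ℕ, ∀ (D : Type u) (B : Type v) [CStarAlgebra D] [CStarAlgebra B],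
      CommutatorSum D m R → CommutingCopies D B N → Nonempty (dimDrop p q →⋆ₐ[ℂ] B) := by
  obtain ⟨κ, hκ, ⟨Φ⟩⟩ := dimDrop_of_legs (T := fun κ => UT.{u, v} m R κ) (ut_legs m R) Unit
    (ut_noChar m R ()) p q hp hq hpq
  refine ⟨Nat.card κ, fun D B _ _ hD hB => ?_⟩
  obtain ⟨a, b, l, r, hn, hrel⟩ := hD.exists_sum
  obtain ⟨φ, hφ⟩ := hB.exists_homs
  rcases subsingleton_or_nontrivial B with hs | hs
  · exact hom_of_subsingleton
  · let e : κ ≃ Fin (Nat.card κ) := Finite.equivFin κ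
    let L : Legs κ D B := ⟨fun i => φ (e i), fun i j hij => hφ _ _ fun h => hij (e.injective h)⟩
    let s : Sys.{u, v} m R κ :=
      { D := D, B := B, instD := inferInstance, instB := inferInstance, nt := hs
        a := a, b := b, l := l, r := r
        ha := fun j => (hn j).1, hb := fun j => (hn j).2.1, hl := fun j => (hn j).2.2.1
        hr := fun j => (hn j).2.2.2, rel := hrel, L := L }
    exact ⟨(co s).comp Φ⟩

end Univ

end Vale.Agent.P101.H413
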